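import Vale.Agent.P181.DG7.Flow
import Vale.Agent.P181.DU.Defs2

set_option autoImplicit false

/-!
# P181, DU: the flow with a potential
-/

namespace Vale.Agent.P181.DU.H237

open Vale.Agent.P181.DG
open Vale.Agent.P181.DU (BadU GoodV FlowV)
open Vale.Agent.P181.SZC1 (double_count card_values blk blk_ge blk_lt blk_disj card_blk lets
  mem_lets sum_lets card_lets nodup_lets card_not_mem)
open Vale.Agent.P181.DG7 (mem_KT ch mem_ch card_ch sum_ch lets_ch dd dd_facts)

/-- the extra letter, none if `z = 0` -/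
def zz (z : ℕ) : Multiset ℕ := if z = 0 then 0 else {z}

theorem mem_zz {z x : ℕ} : x ∈ zz z ↔ z ≠ 0 ∧ x = z := by
  unfold zz
  split_ifs with h
  · simp [h]
  · simp [h]

theorem sum_zz (z : ℕ) : (zz z).sum = z := by
  unfold zz
  split_ifs with h
  · simp [h]
  · simp

theorem card_zz (z : ℕ) : Multiset.card (zz z) = if z = 0 then 0 else 1 := by
  unfold zz
  split_ifs with h
  · simp
  · simp

/-- the sum of the letters larger than `a` -/
def Psi (a : ℕ) (k : Multiset ℕ) : ℕ := (k.filter (a < ·)).sum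

theorem Psi_add (a : ℕ) (k l : Multiset ℕ) : Psi a (k + l) = Psi a k + Psi a l := by
  unfold Psi
  rw [Multiset.filter_add, Multiset.sum_add]

theorem Psi_cons_le (a x : ℕ) (k : Multiset ℕ) : Psi a (x ::ₘ k) ≤ x + Psi a k := by
  unfold Psi
  by_cases h : a < x
  · rw [Multiset.filter_cons_of_pos _ h, Multiset.sum_cons]
  · rw [Multiset.filter_cons_of_neg _ h]
    exact Nat.le_add_left _ _

theorem Psi_cons_of_le {a x : ℕ} (h : x ≤ a) (k : Multiset ℕ) :
    Psi a (x ::ₘ k) = Psi a k := by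
  unfold Psi
  rw [Multiset.filter_cons_of_neg _ (by omega)]

theorem Psi_cons_of_lt {a x : ℕ} (h : a < x) (k : Multiset ℕ) :
    Psi a (x ::ₘ k) = x + Psi a k := by
  unfold Psi
  rw [Multiset.filter_cons_of_pos _ h, Multiset.sum_cons]

theorem Psi_eq_zero {a : ℕ} {k : Multiset ℕ} (h : ∀ x ∈ k, x ≤ a) : Psi a k = 0 := by
  unfold Psi
  have h1 : k.filter (a < ·) = 0 := by
    rw [Multiset.filter_eq_nil]
    intro x hx
    have := h x hx
    omega
  rw [h1, Multiset.sum_zero]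

theorem Psi_le (a : ℕ) (k : Multiset ℕ) : Psi a k ≤ k.sum := by
  induction k using Multiset.induction_on with
  | empty => simp [Psi]
  | cons x k ih =>
    have := Psi_cons_le a x k
    rw [Multiset.sum_cons]
    omega

/-- a free value -/
theorem exists_z {k : Multiset ℕ} {S P h : ℕ} (hP : (k.toFinset.filter (S ≤ ·)).card ≤ P)
    (hh : S ≤ h) : ∃ z, h ≤ z ∧ z ≤ h + P ∧ z ∉ k := by
  by_contra hno
  push Not at hno
  have h1 : (Finset.range (P + 1)).card ≤ (k.toFinset.filter (S ≤ ·)).card := by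
    refine Finset.card_le_card_of_injOn (fun i => h + i) ?_ ?_
    · intro i hi
      rw [Finset.coe_range, Set.mem_Iio] at hi
      rw [Finset.mem_coe, Finset.mem_filter, Multiset.mem_toFinset]
      exact ⟨hno (h + i) (by omega) (by omega), by show S ≤ h + i; omega⟩
    · intro i _ j _ hij
      simp only at hij
      omega
  rw [Finset.card_range] at h1
  omega

theorem dd_facts2 (a K c t : ℕ) : dd a K c t = 0 ∨ c + t + K + dd a K c t ≤ a + 2 := by
  unfold dd
  split_ifs with h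
  · left
    rfl
  · right
    rcases le_total 2 (a + 1 - c - K - t) with h2 | h2
    · rw [max_eq_right h2]
      omega
    · rw [max_eq_left h2]
      omega

theorem pot1 {a K w l' Ψ' Ψ y : ℕ} (hl : l' ≤ a + 2) (h1 : Ψ' + y = Ψ) (h2 : Ψ ≤ w)
    (hy : a < y) : a * l' + 2 * (K + 1) * Ψ' ≤ a * a + 2 * (K + 1) * w := by
  have e1 : a * l' ≤ a * a + 2 * a := by
    calc a * l' ≤ a * (a + 2) := Nat.mul_le_mul_left _ hl
      _ = a * a + 2 * a := by ring
  have e2 : 2 * (K + 1) * (Ψ' + a) ≤ 2 * (K + 1) * w := Nat.mul_le_mul_left _ (by omega)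
  have e3 : 2 * (K + 1) * (Ψ' + a) = 2 * (K + 1) * Ψ' + 2 * a + 2 * (K * a) := by ring
  omega

theorem pot2 {a K w l l' Ψ' Ψ z : ℕ} (hl : l' ≤ l + K + 1 ∨ l' ≤ a + 3) (h1 : Ψ' + z ≤ Ψ)
    (hz : a ≤ 2 * z) (h2 : Ψ ≤ w) (hK : 2 ≤ K)
    (h : a * l + 2 * (K + 1) * Ψ ≤ a * a + 2 * (K + 1) * w) :
    a * l' + 2 * (K + 1) * Ψ' ≤ a * a + 2 * (K + 1) * w := by
  have e1 : 2 * (K + 1) * (Ψ' + z) ≤ 2 * (K + 1) * Ψ := Nat.mul_le_mul_left _ h1
  have e2 : 2 * (K + 1) * (Ψ' + z) = 2 * (K + 1) * Ψ' + (K + 1) * (2 * z) := by ring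
  have e3 : (K + 1) * a ≤ (K + 1) * (2 * z) := Nat.mul_le_mul_left _ hz
  rcases hl with hl | hl
  · have e4 : a * l' ≤ a * (l + K + 1) := Nat.mul_le_mul_left _ hl
    have e5 : a * (l + K + 1) = a * l + (K + 1) * a := by ring
    omega
  · have e4 : a * l' ≤ a * (a + 3) := Nat.mul_le_mul_left _ hl
    have e5 : a * (a + 3) = a * a + 3 * a := by ring
    have e6 : 3 * a ≤ (K + 1) * a := Nat.mul_le_mul_right _ (by omega)
    have e7 : 2 * (K + 1) * Ψ ≤ 2 * (K + 1) * w := Nat.mul_le_mul_left _ h2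
    omega

/-- the target of a choice -/
noncomputable def tgt {n : ℕ} (y D z : Multiset ℕ × ℕ → ℕ) (p : Multiset ℕ × ℕ)
    (c : Σ _ : Fin n → ℕ, ℕ) : Multiset ℕ × ℕ :=
  ((y p - D p - z p - (c.2 + ∑ q, c.1 q)) ::ₘ
    (lets c.1 c.2 + (zz (z p) + p.1.erase (y p))), p.2 + D p)

open scoped Classical in
/-- the fibres -/
theorem fibre_le {Bad : Finset (Multiset ℕ × ℕ)} {n S s P a : ℕ} {y D z : Multiset ℕ × ℕ → ℕ}
    (hsS : s * (n + 1) ≤ S)
    (hy : ∀ p ∈ Bad, y p ∈ p.1 ∧ D p + z p ≤ y p ∧ 2 * (n + 1) * S + S ≤ y p - D p - z p ∧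
      D p < a + 2 ∧ (z p = 0 ∨ S ≤ z p))
    (p' : Multiset ℕ × ℕ) (hP : (p'.1.toFinset.filter (S ≤ ·)).card ≤ P) :
    ((Bad.sigma fun p => ch n S s (zz (z p) + p.1) (zz (z p) + p.1.erase (y p))
      (y p - D p - z p)).filter fun p => tgt y D z p.1 p.2 = p').card ≤
        P ^ (n + 1) * (P * ((P + 1) * (a + 2))) := by
  have hc1 : ∀ q, ((blk S s q).filter (· ∈ p'.1)).card ≤ P := by
    intro q
    refine (Finset.card_le_card ?_).trans hP
    intro u hu
    rw [Finset.mem_filter] at hu ⊢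
    exact ⟨Multiset.mem_toFinset.2 hu.2, blk_ge hu.1⟩
  have hc2 : (insert 0 (p'.1.toFinset.filter (S ≤ ·))).card ≤ P + 1 :=
    (Finset.card_insert_le _ _).trans (Nat.succ_le_succ hP)
  have hU : (((Fintype.piFinset fun q : Fin n => (blk S s (q + 1)).filter (· ∈ p'.1)).sigma
      fun _ => (blk S s 0).filter (· ∈ p'.1)) ×ˢ
        ((p'.1.toFinset.filter (S ≤ ·)) ×ˢ
          ((insert 0 (p'.1.toFinset.filter (S ≤ ·))) ×ˢ Finset.range (a + 2)))).card ≤
      P ^ (n + 1) * (P * ((P + 1) * (a + 2))) := by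
    rw [Finset.card_product, Finset.card_sigma, Finset.sum_const, smul_eq_mul,
      Finset.card_product, Finset.card_product, Finset.card_range]
    refine Nat.mul_le_mul ?_ (Nat.mul_le_mul hP (Nat.mul_le_mul_right _ hc2))
    rw [pow_succ]
    refine Nat.mul_le_mul ?_ (hc1 0)
    rw [Fintype.card_piFinset]
    calc ∏ q : Fin n, ((blk S s (q + 1)).filter (· ∈ p'.1)).card ≤ ∏ _q : Fin n, P :=
          Finset.prod_le_prod' fun q _ => hc1 _
      _ = P ^ n := by simp
  refine (Finset.card_le_card_of_injOn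
    (fun p => (p.2, (y p.1 - D p.1 - z p.1 - (p.2.2 + ∑ q, p.2.1 q), (z p.1, D p.1))))
      ?_ ?_).trans hU
  · intro p hp
    rw [Finset.mem_coe, Finset.mem_filter, Finset.mem_sigma] at hp
    obtain ⟨⟨hp1, hp2⟩, hp3⟩ := hp
    have hcs := sum_ch hsS hp2
    have hyY := hy _ hp1
    rw [mem_ch] at hp2
    have h31 : (tgt y D z p.1 p.2).1 = p'.1 := by rw [hp3]
    have hin : ∀ v ∈ lets p.2.1 p.2.2, v ∈ p'.1 := by
      intro v hv
      rw [← h31]
      exact Multiset.mem_cons_of_mem (Multiset.mem_add.2 (Or.inl hv))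
    rw [Finset.mem_coe, Finset.mem_product, Finset.mem_sigma, Fintype.mem_piFinset,
      Finset.mem_product, Finset.mem_product]
    refine ⟨⟨fun q => ?_, ?_⟩, ?_, ?_, ?_⟩
    · rw [Finset.mem_filter]
      exact ⟨(hp2.1 q).1, hin _ (mem_lets.2 (Or.inr ⟨q, rfl⟩))⟩
    · rw [Finset.mem_filter]
      exact ⟨hp2.2.1, hin _ (mem_lets.2 (Or.inl rfl))⟩
    · rw [Finset.mem_filter, Multiset.mem_toFinset]
      refine ⟨?_, ?_⟩
      · rw [← h31]
        exact Multiset.mem_cons_self _ _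
      · show S ≤ y p.1 - D p.1 - z p.1 - (p.2.2 + ∑ q, p.2.1 q)
        omega
    · show z p.1 ∈ _
      rw [Finset.mem_insert, Finset.mem_filter, Multiset.mem_toFinset]
      by_cases hz : z p.1 = 0
      · exact Or.inl hz
      · right
        refine ⟨?_, ?_⟩
        · rw [← h31]
          exact Multiset.mem_cons_of_mem (Multiset.mem_add.2 (Or.inr (Multiset.mem_add.2
            (Or.inl (mem_zz.2 ⟨hz, rfl⟩)))))
        · rcases hyY.2.2.2.2 with h | h
          · exact absurd h hz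
          · exact h
    · rw [Finset.mem_range]
      exact hyY.2.2.2.1
  · intro p hp p' hp' hpp
    rw [Finset.mem_coe, Finset.mem_filter, Finset.mem_sigma] at hp hp'
    obtain ⟨⟨hp1, hp2⟩, hp3⟩ := hp
    obtain ⟨⟨hp1', hp2'⟩, hp3'⟩ := hp'
    have hcs := sum_ch hsS hp2
    have hcs' := sum_ch hsS hp2'
    have hyY := hy _ hp1
    have hyY' := hy _ hp1'
    obtain ⟨⟨k, t⟩, c⟩ := p
    obtain ⟨⟨k₂, t₂⟩, c₂⟩ := p'
    simp only [Prod.mk.injEq] at hpp
    obtain ⟨rfl, hpp, hzz, hDD⟩ := hpp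
    simp only at hp1 hp1' hp2 hp2' hp3 hp3' hcs hcs' hyY hyY'
    have hyy : y (k, t) = y (k₂, t₂) := by omega
    have h2 := hp3.trans hp3'.symm
    unfold tgt at h2
    simp only [Prod.mk.injEq] at h2
    obtain ⟨h2, h4⟩ := h2
    have h1 : k.erase (y (k, t)) = k₂.erase (y (k₂, t₂)) := by
      rw [hpp, hzz] at h2
      exact add_left_cancel (add_left_cancel ((Multiset.cons_inj_right _).1 h2))
    have h3 : k = k₂ := by
      rw [← Multiset.cons_erase hyY.1, ← Multiset.cons_erase hyY'.1, h1, hyy]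
    have h5 : t = t₂ := by omega
    subst h3
    subst h5
    rfl

/-- The states of the flow. -/
def BadP (a J K w : ℕ) (p : Multiset ℕ × ℕ) : Prop :=
  (∃ x ∈ p.1, a < x) ∧ J ≤ Multiset.card p.1 + p.2 ∧ 1 ≤ p.2 ∧ p.2 ≤ a ∧
    a * (Multiset.card p.1 + p.2) + 2 * (K + 1) * Psi a p.1 ≤ a * a + 2 * (K + 1) * w

/-- **The flow with a potential.** -/
theorem flowV : FlowV := by
  classical
  intro g a b J S K X w hg hK hS hX hw hwX hJ hJa hab
  obtain ⟨n, rfl⟩ : ∃ n, K = n + 1 := ⟨K - 1, by omega⟩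
  obtain ⟨s, hs⟩ : ∃ s, s = S / (n + 1) := ⟨_, rfl⟩
  obtain ⟨P, hP⟩ : ∃ P, P = w / S := ⟨_, rfl⟩
  have hsS : s * (n + 1) ≤ S := by rw [hs]; exact Nat.div_mul_le_self _ _
  have hPS : P * S ≤ w := by rw [hP]; exact Nat.div_mul_le_self _ _
  have hPw : P ≤ w := by rw [hP]; exact Nat.div_le_self _ _
  obtain ⟨V, hV⟩ : ∃ V, V = KT w S ×ˢ Finset.range (a + 2) := ⟨_, rfl⟩
  obtain ⟨Bad, hBad⟩ : ∃ Bad, Bad = V.filter (BadP a J (n + 1) w) := ⟨_, rfl⟩
  obtain ⟨G, hG⟩ : ∃ G, G = V.filter (GoodV a b) := ⟨_, rfl⟩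
  obtain ⟨T, hT⟩ : ∃ T, T = Bad ∪ G := ⟨_, rfl⟩
  rw [← hV, ← hG]
  have hmV : ∀ p : Multiset ℕ × ℕ, p ∈ V ↔ (p.1.sum ≤ w ∧ ∀ x ∈ p.1, S ≤ x) ∧ p.2 < a + 2 := by
    intro p
    rw [hV, Finset.mem_product, mem_KT (by omega), Finset.mem_range]
  have hsub : ∑ p ∈ V.filter (BadU a J), g p.1 p.2 ≤ ∑ p ∈ Bad, g p.1 p.2 := by
    refine Finset.sum_le_sum_of_subset ?_
    intro p hp
    rw [Finset.mem_filter] at hp
    obtain ⟨hp1, h1, h2, h3, h4⟩ := hp
    rw [hBad, Finset.mem_filter]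
    refine ⟨hp1, h1, h2, h3, by omega, ?_⟩
    have e1 : a * (Multiset.card p.1 + p.2) ≤ a * a := Nat.mul_le_mul_left _ h4
    have e2 : 2 * (n + 1 + 1) * Psi a p.1 ≤ 2 * (n + 1 + 1) * w :=
      Nat.mul_le_mul_left _ ((Psi_le a p.1).trans ((hmV p).1 hp1).1.1)
    omega
  refine (Nat.mul_le_mul_left 3 hsub).trans ?_
  have hdis : Disjoint Bad G := by
    rw [Finset.disjoint_left]
    intro p hp hp'
    rw [hBad, Finset.mem_filter] at hp
    rw [hG, Finset.mem_filter] at hp'
    obtain ⟨x, hx, hxa⟩ := hp.2.1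
    have := hp'.2.1 x hx
    omega
  have hsumT : ∑ p ∈ T, g p.1 p.2 = ∑ p ∈ Bad, g p.1 p.2 + ∑ p ∈ G, g p.1 p.2 := by
    rw [hT, Finset.sum_union hdis]
  have hvals : ∀ p ∈ Bad, (p.1.sum ≤ w ∧ ∀ x ∈ p.1, S ≤ x) ∧ BadP a J (n + 1) w p := by
    intro p hp
    rw [hBad, Finset.mem_filter, hmV] at hp
    exact ⟨hp.1.1, hp.2⟩
  -- if there are no bad states
  by_cases hTe : Bad = ∅
  · rw [hTe, Finset.sum_empty]
    omega
  obtain ⟨p₁, hp₁⟩ := Finset.nonempty_iff_ne_empty.2 hTe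
  have hJ2 : 21 * S ≤ J := (Nat.mul_le_mul_right S (by omega)).trans hJ
  have hP1 : 1 ≤ P := by
    obtain ⟨x, hx, hxa⟩ := (hvals p₁ hp₁).2.1
    have h1 := Multiset.le_sum_of_mem hx
    have h2 := (hvals p₁ hp₁).1.1
    rw [hP, Nat.le_div_iff_mul_le (by omega)]
    omega
  -- numbers
  have hXP : P * X ^ 2 ≤ S := by
    have h1 : P * X ^ 2 * S ≤ S * S := by
      calc P * X ^ 2 * S = P * S * X ^ 2 := by ring
        _ ≤ w * X ^ 2 := Nat.mul_le_mul_right _ hPS
        _ ≤ S ^ 2 := hw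
        _ = S * S := by ring
    exact Nat.le_of_mul_le_mul_right h1 (by omega)
  have hX8 : 8 ≤ X := by omega
  have hPS4 : 4 * P ≤ S := by
    have h1 : 4 * P ≤ P * X ^ 2 := by
      have : 4 ≤ X ^ 2 := by nlinarith
      calc 4 * P = P * 4 := Nat.mul_comm _ _
        _ ≤ P * X ^ 2 := Nat.mul_le_mul_left _ this
    omega
  have hsP : X * (P + 1) ≤ s - 2 * (P + 1) := by
    have h1 : (X + 2) * (P + 1) ≤ s := by
      rw [hs, Nat.le_div_iff_mul_le (by omega)]
      have e1 : (X + 2) * (n + 1) * 2 ≤ X ^ 2 := by nlinarith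
      calc (X + 2) * (P + 1) * (n + 1) = ((X + 2) * (n + 1)) * (P + 1) := by ring
        _ ≤ ((X + 2) * (n + 1)) * (2 * P) := Nat.mul_le_mul_left _ (by omega)
        _ = ((X + 2) * (n + 1) * 2) * P := by ring
        _ ≤ X ^ 2 * P := Nat.mul_le_mul_right _ e1
        _ = P * X ^ 2 := by ring
        _ ≤ S := hXP
    have h2 : (X + 2) * (P + 1) = X * (P + 1) + 2 * (P + 1) := by ring
    omega
  have hJS : 2 * (2 * (n + 1) * S + 3 * S) ≤ J := by
    have h1 : (6 * (n + 1) + 9) * S = 2 * (2 * (n + 1) * S + 3 * S) + (2 * (n + 1) * S + 3 * S) := by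
      ring
    omega
  have hcard : ∀ k : Multiset ℕ, k.sum ≤ w → (k.toFinset.filter (S ≤ ·)).card ≤ P := by
    intro k hk
    rw [hP, Nat.le_div_iff_mul_le (by omega)]
    exact (card_values k S).trans hk
  -- the letter
  have hlet : ∀ p : Multiset ℕ × ℕ, ∃ y : ℕ, p ∈ Bad → y ∈ p.1 ∧ a < y := by
    intro p
    by_cases hp : p ∈ Bad
    · obtain ⟨y, h1, h2⟩ := (hvals p hp).2.1
      exact ⟨y, fun _ => ⟨h1, h2⟩⟩
    · exact ⟨0, fun h => absurd h hp⟩
  choose y hy using hlet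
  obtain ⟨D, hD⟩ : ∃ D : Multiset ℕ × ℕ → ℕ, D = fun p =>
      dd a (n + 1) (Multiset.card p.1) p.2 := ⟨_, rfl⟩
  have hfac : ∀ p ∈ Bad, J ≤ y p - D p ∧ D p ≤ y p ∧ p.2 + D p ≤ a ∧
      a < Multiset.card p.1 + (n + 1) + (p.2 + D p) ∧
      (D p = 0 ∨ 2 ≤ D p ∧ p.2 ≤ y p - D p) := by
    intro p hp
    obtain ⟨h1, h2, h3, h4, h5⟩ := (hvals p hp).2
    rw [hD]
    refine dd_facts (by omega) ?_ h2 h4 hJa (hy p hp).2
    exact Multiset.card_pos_iff_exists_mem.2 ⟨_, (hy p hp).1⟩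
  have hfac2 : ∀ p, D p = 0 ∨ Multiset.card p.1 + p.2 + (n + 1) + D p ≤ a + 2 := by
    intro p
    rw [hD]
    exact dd_facts2 a (n + 1) _ _
  -- the extra letter
  have hzex : ∀ p : Multiset ℕ × ℕ, ∃ z : ℕ, p ∈ Bad → (y p - D p ≤ a ∧ z = 0) ∨
      (a < y p - D p ∧ a ≤ 2 * z ∧ 2 * z ≤ a + 1 + 2 * P ∧ z ∉ p.1) := by
    intro p
    by_cases hp : p ∈ Bad
    · by_cases h1 : y p - D p ≤ a
      · exact ⟨0, fun _ => Or.inl ⟨h1, rfl⟩⟩
      · obtain ⟨z, h2, h3, h4⟩ := exists_z (h := (a + 1) / 2) (hcard _ (hvals p hp).1.1)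
          (by omega)
        exact ⟨z, fun _ => Or.inr ⟨by omega, by omega, by omega, h4⟩⟩
    · exact ⟨0, fun h => absurd h hp⟩
  choose z hz using hzex
  have hv : ∀ p ∈ Bad, D p + z p ≤ y p ∧ 2 * (n + 1) * S + 2 * S ≤ y p - D p - z p ∧
      (z p = 0 ∨ 2 * S ≤ z p ∧ z p ≤ a ∧ z p ∉ p.1) := by
    intro p hp
    obtain ⟨h1, h2, h3, h4, h5⟩ := hfac p hp
    rcases hz p hp with ⟨h6, h7⟩ | ⟨h6, h7, h8, h9⟩
    · rw [h7]
      refine ⟨by omega, by omega, Or.inl rfl⟩
    · refine ⟨by omega, by omega, Or.inr ⟨by omega, by omega, h9⟩⟩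
  have main : (X * (P + 1)) ^ (n + 1) * ∑ p ∈ Bad, g p.1 p.2 ≤
      (P ^ (n + 1) * (P * ((P + 1) * (a + 2)))) * ∑ p ∈ T, g p.1 p.2 := by
    refine double_count Bad T (fun p => ch n S s (zz (z p) + p.1) (zz (z p) + p.1.erase (y p))
      (y p - D p - z p)) (fun p c => tgt y D z p c) (fun p => g p.1 p.2) _ _ ?_ ?_ ?_ ?_
    · intro p hp
      have h1 := hv p hp
      refine (Nat.pow_le_pow_left hsP _).trans (card_ch ?_ (fun x hx => ?_) hsS (by omega))
      · have h2 : ((zz (z p) + p.1).toFinset.filter (S ≤ ·)) ⊆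
            insert (z p) (p.1.toFinset.filter (S ≤ ·)) := by
          intro u hu
          rw [Finset.mem_filter, Multiset.mem_toFinset, Multiset.mem_add] at hu
          rw [Finset.mem_insert, Finset.mem_filter, Multiset.mem_toFinset]
          rcases hu with ⟨h2 | h2, h3⟩
          · exact Or.inl (mem_zz.1 h2).2
          · exact Or.inr ⟨h2, h3⟩
        exact (Finset.card_le_card h2).trans ((Finset.card_insert_le _ _).trans
          (Nat.succ_le_succ (hcard _ (hvals p hp).1.1)))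
      · rw [Multiset.mem_add] at hx ⊢
        rcases hx with hx | hx
        · exact Or.inl hx
        · exact Or.inr (Multiset.mem_of_mem_erase hx)
    · intro p hp c hc
      obtain ⟨hf1, hf2, hf3, hf4, -⟩ := hfac p hp
      obtain ⟨⟨hv1, hv2⟩, hv3, hv4, hv5, hv6, hv7⟩ := hvals p hp
      obtain ⟨hw1, hw2, hw3⟩ := hv p hp
      have hf6 := hfac2 p
      have hcs := sum_ch hsS hc
      have hyk := (hy p hp).1
      have hya := (hy p hp).2
      obtain ⟨r, hr⟩ := Multiset.exists_cons_of_mem hyk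
      have her : p.1.erase (y p) = r := by
        conv_lhs => rw [hr]
        rw [Multiset.erase_cons_head]
      have hletS : ∀ u ∈ lets c.1 c.2, S ≤ u ∧ u < 2 * S := fun u hu =>
        ⟨(lets_ch hsS hc hu).1, (lets_ch hsS hc hu).2.1⟩
      have hsum : (tgt y D z p c).1.sum ≤ w := by
        have h1 : p.1.sum = y p + r.sum := by rw [hr, Multiset.sum_cons]
        unfold tgt
        simp only [Multiset.sum_cons, Multiset.sum_add, sum_lets, her, sum_zz]
        omega
      have hcz := card_zz (z p)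
      have hcd : Multiset.card (tgt y D z p c).1 =
          Multiset.card p.1 + (n + 1) + Multiset.card (zz (z p)) := by
        have h1 : Multiset.card p.1 = Multiset.card r + 1 := by rw [hr, Multiset.card_cons]
        unfold tgt
        simp only [Multiset.card_cons, Multiset.card_add, card_lets, her]
        omega
      have hge : ∀ x ∈ (tgt y D z p c).1, S ≤ x := by
        intro x hx
        unfold tgt at hx
        simp only [Multiset.mem_cons, Multiset.mem_add] at hx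
        rcases hx with rfl | hx | hx | hx
        · omega
        · exact (hletS x hx).1
        · obtain ⟨h1, h2⟩ := mem_zz.1 hx
          rw [h2]
          omega
        · exact hv2 x (Multiset.mem_of_mem_erase hx)
      have h2 : (tgt y D z p c).2 = p.2 + D p := rfl
      have hmem : tgt y D z p c ∈ V := (hmV _).2 ⟨⟨hsum, hge⟩, by omega⟩
      -- the potential
      have hPsi : Psi a p.1 = y p + Psi a r := by
        conv_lhs => rw [hr]
        exact Psi_cons_of_lt hya r
      have hPsiw : Psi a p.1 ≤ w := (Psi_le a p.1).trans hv1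
      have hlets0 : Psi a (lets c.1 c.2) = 0 := Psi_eq_zero fun u hu => by
        have := (hletS u hu).2
        omega
      have hz0 : Psi a (zz (z p)) = 0 := Psi_eq_zero fun u hu => by
        obtain ⟨h1, h2⟩ := mem_zz.1 hu
        omega
      have hrest : Psi a (lets c.1 c.2 + (zz (z p) + r)) = Psi a r := by
        rw [Psi_add, Psi_add, hlets0, hz0, zero_add, zero_add]
      have hpot : a * (Multiset.card (tgt y D z p c).1 + (tgt y D z p c).2) +
          2 * (n + 1 + 1) * Psi a (tgt y D z p c).1 ≤ a * a + 2 * (n + 1 + 1) * w := by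
        rcases hz p hp with ⟨h6, h7⟩ | ⟨h6, h7, h8, h9⟩
        · have h10 : Multiset.card (zz (z p)) = 0 := by rw [hcz, if_pos h7]
          have h11 : Psi a (tgt y D z p c).1 = Psi a r := by
            unfold tgt
            simp only [her]
            rw [Psi_cons_of_le (by omega), hrest]
          refine pot1 (K := n + 1) (y := y p) (Ψ := Psi a p.1) ?_ ?_ hPsiw hya
          · rw [hcd, h10, h2]
            omega
          · rw [h11]
            omega
        · have h10 : Multiset.card (zz (z p)) = 1 := by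
            rw [hcz, if_neg]
            omega
          have h11 : Psi a (tgt y D z p c).1 ≤ y p - D p - z p - (c.2 + ∑ q, c.1 q) +
              Psi a r := by
            unfold tgt
            simp only [her]
            refine (Psi_cons_le _ _ _).trans ?_
            rw [hrest]
          refine pot2 (K := n + 1) (l := Multiset.card p.1 + p.2) (Ψ := Psi a p.1) (z := z p)
            ?_ ?_ h7 hPsiw hK hv7
          · rw [hcd, h10, h2]
            omega
          · omega
      rw [hT, Finset.mem_union]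
      by_cases hall : ∀ x ∈ (tgt y D z p c).1, x ≤ a
      · right
        rw [hG, Finset.mem_filter]
        refine ⟨hmem, hall, by omega, by omega, ?_⟩
        have h12 : a * (Multiset.card (tgt y D z p c).1 + (tgt y D z p c).2) ≤ a * b := by
          omega
        exact Nat.le_of_mul_le_mul_left h12 (by omega)
      · left
        push Not at hall
        rw [hBad, Finset.mem_filter]
        exact ⟨hmem, hall, by omega, by omega, by omega, hpot⟩
    · intro p hp c hc
      obtain ⟨hf1, hf2, hf3, hf4, hf5⟩ := hfac p hp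
      obtain ⟨⟨hv1, hv2⟩, hv3, hv4, hv5, hv6, hv7⟩ := hvals p hp
      obtain ⟨hw1, hw2, hw3⟩ := hv p hp
      have hcs := sum_ch hsS hc
      have hyk := (hy p hp).1
      have hya := (hy p hp).2
      have hlc := fun u (hu : u ∈ lets c.1 c.2) => lets_ch hsS hc hu
      rw [mem_ch] at hc
      obtain ⟨hc1, hc2, hc3, hc4⟩ := hc
      rw [Multiset.mem_add, not_or] at hc4
      have hnd := nodup_lets (fun q => (hc1 q).1) hc2
      have hpos : 0 < c.2 + ∑ q, c.1 q := by
        have := blk_ge hc2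
        omega
      have hndz : (lets c.1 c.2 + zz (z p)).Nodup := by
        rw [Multiset.nodup_add]
        refine ⟨hnd, ?_, ?_⟩
        · unfold zz
          split_ifs
          · exact Multiset.nodup_zero
          · exact Multiset.nodup_singleton _
        · rw [Multiset.disjoint_left]
          intro u hu hu'
          obtain ⟨h1, h2⟩ := mem_zz.1 hu'
          have := (hlc u hu).2.1
          omega
      have h1 := hg (p.1.erase (y p)) ((y p - D p - z p - (c.2 + ∑ q, c.1 q)) ::ₘ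
        (lets c.1 c.2 + zz (z p))) (y p) (D p) p.2 hv5 (by omega) ?_ ?_ ?_ ?_
      · rw [Multiset.cons_erase hyk, Multiset.cons_add, add_assoc] at h1
        exact h1
      · rw [Multiset.nodup_cons]
        refine ⟨fun h => ?_, hndz⟩
        rw [Multiset.mem_add] at h
        rcases h with h | h
        · have := (hlc _ h).2.1
          omega
        · exact hc4.1 h
      · intro u hu
        rw [Multiset.mem_cons, Multiset.mem_add] at hu
        rcases hu with rfl | hu | hu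
        · exact ⟨by omega, hc4.2, by omega⟩
        · have h2 := hlc u hu
          refine ⟨h2.1, fun h => h2.2.2 (Multiset.mem_add.2 (Or.inr
            (Multiset.mem_of_mem_erase h))), by omega⟩
        · obtain ⟨h1, rfl⟩ := mem_zz.1 hu
          rcases hw3 with h3 | ⟨h3, h4, h5⟩
          · exact absurd h3 h1
          · exact ⟨by omega, fun h => h5 (Multiset.mem_of_mem_erase h), by omega⟩
      · rw [Multiset.sum_cons, Multiset.sum_add, sum_lets, sum_zz]
        omega
      · rcases hf5 with h | ⟨h, h'⟩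
        · exact Or.inl h
        · refine Or.inr ⟨h, ?_⟩
          rw [Multiset.sum_cons, Multiset.sum_add, sum_lets, sum_zz]
          omega
    · intro p' hp'
      have hp's : p'.1.sum ≤ w := by
        rw [hT, Finset.mem_union, hBad, hG, Finset.mem_filter, Finset.mem_filter] at hp'
        rcases hp' with h | h
        · exact ((hmV _).1 h.1).1.1
        · exact ((hmV _).1 h.1).1.1
      refine fibre_le hsS (fun p hp => ?_) p' (hcard _ hp's)
      have h1 := hfac p hp
      have h2 := hv p hp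
      refine ⟨(hy p hp).1, h2.1, by omega, by omega, ?_⟩
      rcases h2.2.2 with h3 | h3
      · exact Or.inl h3
      · exact Or.inr (by omega)
  -- conclusion
  have hPpos : 0 < P ^ (n + 1) * (P * ((P + 1) * (a + 2))) :=
    Nat.mul_pos (Nat.pow_pos hP1) (Nat.mul_pos hP1 (Nat.mul_pos (by omega) (by omega)))
  have h4 : 4 * (P ^ (n + 1) * (P * ((P + 1) * (a + 2)))) ≤ (X * (P + 1)) ^ (n + 1) := by
    rw [mul_pow]
    calc 4 * (P ^ (n + 1) * (P * ((P + 1) * (a + 2))))
        = (4 * (P * ((P + 1) * (a + 2)))) * P ^ (n + 1) := by ring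
      _ ≤ (4 * ((w + 1) * ((w + 2) * (a + 2)))) * (P + 1) ^ (n + 1) := by
          refine Nat.mul_le_mul (Nat.mul_le_mul_left _ (Nat.mul_le_mul (by omega)
            (Nat.mul_le_mul_right _ (by omega)))) (Nat.pow_le_pow_left (by omega) _)
      _ ≤ X ^ (n + 1) * (P + 1) ^ (n + 1) := Nat.mul_le_mul_right _ hwX
  have h5 : 4 * ∑ p ∈ Bad, g p.1 p.2 ≤ ∑ p ∈ T, g p.1 p.2 := by
    have h6 : (P ^ (n + 1) * (P * ((P + 1) * (a + 2)))) * (4 * ∑ p ∈ Bad, g p.1 p.2) ≤
        (P ^ (n + 1) * (P * ((P + 1) * (a + 2)))) * ∑ p ∈ T, g p.1 p.2 := by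
      calc (P ^ (n + 1) * (P * ((P + 1) * (a + 2)))) * (4 * ∑ p ∈ Bad, g p.1 p.2)
          = (4 * (P ^ (n + 1) * (P * ((P + 1) * (a + 2))))) * ∑ p ∈ Bad, g p.1 p.2 := by ring
        _ ≤ (X * (P + 1)) ^ (n + 1) * ∑ p ∈ Bad, g p.1 p.2 := Nat.mul_le_mul_right _ h4
        _ ≤ _ := main
    exact Nat.le_of_mul_le_mul_left h6 hPpos
  omega

end Vale.Agent.P181.DU.H237
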